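import Vale.Agent.Lib.P356.helper23.Defs

/-!
Pool job P356-C: an operator acting on the sites of C and on the sites off A, applied to a
product vector, has cut rank at most q ^ (2 |C|).
-/

namespace Vale.Agent.Lib.P356.H25

open Matrix
open Vale.Agent.Lib.P356

/-- A matrix given by a kernel that factors through two finite index types has rank at most
the product of their cardinalities. -/
theorem rank_le_of_kernel {m n m' J2 J1 : Type*} [Fintype m] [Fintype n] [Fintype m']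
    [Fintype J2] [Fintype J1] [DecidableEq J2] [DecidableEq J1]
    (M : Matrix m n ℂ) (χ : m → m' → ℂ) (r2 : m → J2) (r1 : m' → J1)
    (W : J2 → J1 → n → ℂ)
    (hM : ∀ a b, M a b = ∑ a', χ a a' * W (r2 a) (r1 a') b) :
    M.rank ≤ Fintype.card J2 * Fintype.card J1 := by
  have hfac : M = (Matrix.of fun (a : m) (j : J2 × J1) =>
      ∑ a', if r2 a = j.1 ∧ r1 a' = j.2 then χ a a' else 0) *
      (Matrix.of fun (j : J2 × J1) (b : n) => W j.1 j.2 b) := by
    ext a b
    rw [hM, Matrix.mul_apply, Fintype.sum_prod_type]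
    simp only [Matrix.of_apply, Finset.sum_mul]
    have hswap : ∑ c2, ∑ c1, ∑ a', (if r2 a = c2 ∧ r1 a' = c1 then χ a a' else 0) * W c2 c1 b
        = ∑ a', ∑ c2, ∑ c1, (if r2 a = c2 ∧ r1 a' = c1 then χ a a' else 0) * W c2 c1 b := by
      calc ∑ c2, ∑ c1, ∑ a', (if r2 a = c2 ∧ r1 a' = c1 then χ a a' else 0) * W c2 c1 b
          = ∑ c2, ∑ a', ∑ c1, (if r2 a = c2 ∧ r1 a' = c1 then χ a a' else 0) * W c2 c1 b :=
            Finset.sum_congr rfl fun c2 _ => Finset.sum_comm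
        _ = ∑ a', ∑ c2, ∑ c1, (if r2 a = c2 ∧ r1 a' = c1 then χ a a' else 0) * W c2 c1 b :=
            Finset.sum_comm
    rw [hswap]
    refine Finset.sum_congr rfl fun a' _ => ?_
    symm
    rw [Finset.sum_eq_single (r2 a), Finset.sum_eq_single (r1 a')]
    · rw [if_pos ⟨rfl, rfl⟩]
    · intro c1 _ hc1
      rw [if_neg (fun hc => hc1 hc.2.symm), zero_mul]
    · intro hc
      exact absurd (Finset.mem_univ _) hc
    · intro c2 _ hc2
      exact Finset.sum_eq_zero fun c1 _ => by rw [if_neg (fun hc => hc2 hc.1.symm), zero_mul]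
    · intro hc
      exact absurd (Finset.mem_univ _) hc
  rw [hfac]
  calc ((Matrix.of fun (a : m) (j : J2 × J1) =>
          ∑ a', if r2 a = j.1 ∧ r1 a' = j.2 then χ a a' else 0) *
        (Matrix.of fun (j : J2 × J1) (b : n) => W j.1 j.2 b)).rank
      ≤ (Matrix.of fun (a : m) (j : J2 × J1) =>
          ∑ a', if r2 a = j.1 ∧ r1 a' = j.2 then χ a a' else 0).rank :=
        Matrix.rank_mul_le_left _ _
    _ ≤ Fintype.card (J2 × J1) := Matrix.rank_le_card_width _
    _ = Fintype.card J2 * Fintype.card J1 := Fintype.card_prod _ _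

/-- The restriction to C of a configuration on A. -/
def resC {Λ : Type*} {q : ℕ} (A C : Finset Λ) (hC : C ⊆ A) (a : {x // x ∈ A} → Fin q) :
    {x // x ∈ C} → Fin q :=
  fun x => a ⟨x.1, hC x.2⟩

/-- The configuration on A that equals c on C and is zero on the other sites of A. -/
def extC {Λ : Type*} [DecidableEq Λ] {q : ℕ} [NeZero q] (A C : Finset Λ)
    (c : {x // x ∈ C} → Fin q) : {x // x ∈ A} → Fin q :=
  fun x => if h : x.1 ∈ C then c ⟨x.1, h⟩ else 0

theorem glue_apply {Λ : Type*} [DecidableEq Λ] {q : ℕ} (A : Finset Λ)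
    (a : {x // x ∈ A} → Fin q) (b : {x // x ∉ A} → Fin q) (x : Λ) :
    glue A a b x = if h : x ∈ A then a ⟨x, h⟩ else b ⟨x, h⟩ := rfl

theorem glue_pos {Λ : Type*} [DecidableEq Λ] {q : ℕ} (A : Finset Λ)
    (a : {x // x ∈ A} → Fin q) (b : {x // x ∉ A} → Fin q) (x : Λ) (h : x ∈ A) :
    glue A a b x = a ⟨x, h⟩ := by
  rw [glue_apply, dif_pos h]

theorem glue_neg {Λ : Type*} [DecidableEq Λ] {q : ℕ} (A : Finset Λ)
    (a : {x // x ∈ A} → Fin q) (b : {x // x ∉ A} → Fin q) (x : Λ) (h : x ∉ A) :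
    glue A a b x = b ⟨x, h⟩ := by
  rw [glue_apply, dif_neg h]

theorem extC_pos {Λ : Type*} [DecidableEq Λ] {q : ℕ} [NeZero q] (A C : Finset Λ)
    (c : {x // x ∈ C} → Fin q) (x : {x // x ∈ A}) (h : x.1 ∈ C) :
    extC A C c x = c ⟨x.1, h⟩ := by
  show (if h : x.1 ∈ C then c ⟨x.1, h⟩ else 0) = c ⟨x.1, h⟩
  rw [dif_pos h]

theorem extC_neg {Λ : Type*} [DecidableEq Λ] {q : ℕ} [NeZero q] (A C : Finset Λ)
    (c : {x // x ∈ C} → Fin q) (x : {x // x ∈ A}) (h : x.1 ∉ C) :
    extC A C c x = 0 := by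
  show (if h : x.1 ∈ C then c ⟨x.1, h⟩ else 0) = 0
  rw [dif_neg h]

theorem glue_restrict {Λ : Type*} [DecidableEq Λ] {q : ℕ} (A : Finset Λ) (κ : Conf Λ q) :
    glue A (fun x => κ x.1) (fun x => κ x.1) = κ := by
  funext x
  by_cases h : x ∈ A
  · rw [glue_pos A _ _ x h]
  · rw [glue_neg A _ _ x h]

theorem glue_on {Λ : Type*} [DecidableEq Λ] {q : ℕ} (A : Finset Λ)
    (a : {x // x ∈ A} → Fin q) (b : {x // x ∉ A} → Fin q) :
    (fun x : {x // x ∈ A} => glue A a b x.1) = a := by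
  funext x
  exact glue_pos A a b x.1 x.2

theorem glue_off {Λ : Type*} [DecidableEq Λ] {q : ℕ} (A : Finset Λ)
    (a : {x // x ∈ A} → Fin q) (b : {x // x ∉ A} → Fin q) :
    (fun x : {x // x ∉ A} => glue A a b x.1) = b := by
  funext x
  exact glue_neg A a b x.1 x.2

theorem sum_glue {Λ : Type*} [Fintype Λ] [DecidableEq Λ] {q : ℕ} (A : Finset Λ)
    (F : Conf Λ q → ℂ) :
    ∑ κ, F κ = ∑ a : {x // x ∈ A} → Fin q, ∑ b : {x // x ∉ A} → Fin q, F (glue A a b) := by
  rw [← Fintype.sum_prod_type']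
  refine Fintype.sum_equiv (Equiv.piEquivPiSubtypeProd (fun x => x ∈ A) (fun _ => Fin q)) _ _
    (fun κ => ?_)
  exact congrArg F (glue_restrict A κ).symm

theorem T_entry {Λ : Type*} [Fintype Λ] [DecidableEq Λ] {q : ℕ} [NeZero q] (A C : Finset Λ)
    (hC : C ⊆ A) (T : Matrix (Conf Λ q) (Conf Λ q) ℂ) (hT : SupportedOn (C ∪ Aᶜ) T)
    (a a' : {x // x ∈ A} → Fin q) (b b' : {x // x ∉ A} → Fin q)
    (hag : ∀ x : {x // x ∈ A}, x.1 ∉ C → a x = a' x) :
    T (glue A a b) (glue A a' b')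
      = T (glue A (extC A C (resC A C hC a)) b) (glue A (extC A C (resC A C hC a')) b') := by
  have key : ∀ (a0 : {x // x ∈ A} → Fin q) (b0 : {x // x ∉ A} → Fin q) (x : Λ),
      x ∈ C ∪ Aᶜ → glue A a0 b0 x = glue A (extC A C (resC A C hC a0)) b0 x := by
    intro a0 b0 x hx
    by_cases hxA : x ∈ A
    · have hxC : x ∈ C := by
        rcases Finset.mem_union.mp hx with h | h
        · exact h
        · exact absurd hxA (Finset.mem_compl.mp h)
      rw [glue_pos A _ _ x hxA, glue_pos A _ _ x hxA, extC_pos A C _ ⟨x, hxA⟩ hxC]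
      rfl
    · rw [glue_neg A _ _ x hxA, glue_neg A _ _ x hxA]
  apply hT.2
  · exact fun x hx => key a b x hx
  · exact fun x hx => key a' b' x hx
  · intro x hx
    have hxA : x ∈ A := by
      by_contra h
      exact hx (Finset.mem_union_right _ (Finset.mem_compl.mpr h))
    have hxC : x ∉ C := fun h => hx (Finset.mem_union_left _ h)
    rw [glue_pos A _ _ x hxA, glue_pos A _ _ x hxA]
    exact hag ⟨x, hxA⟩ hxC
  · intro x hx
    have hxA : x ∈ A := by
      by_contra h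
      exact hx (Finset.mem_union_right _ (Finset.mem_compl.mpr h))
    have hxC : x ∉ C := fun h => hx (Finset.mem_union_left _ h)
    rw [glue_pos A _ _ x hxA, glue_pos A _ _ x hxA, extC_neg A C _ ⟨x, hxA⟩ hxC,
      extC_neg A C _ ⟨x, hxA⟩ hxC]

theorem T_entry_zero {Λ : Type*} [Fintype Λ] [DecidableEq Λ] {q : ℕ} (A C : Finset Λ)
    (T : Matrix (Conf Λ q) (Conf Λ q) ℂ) (hT : SupportedOn (C ∪ Aᶜ) T)
    (a a' : {x // x ∈ A} → Fin q) (b b' : {x // x ∉ A} → Fin q)
    (hag : ¬ ∀ x : {x // x ∈ A}, x.1 ∉ C → a x = a' x) :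
    T (glue A a b) (glue A a' b') = 0 := by
  by_contra hne
  apply hag
  intro x hxC
  have h := hT.1 _ _ hne x.1 (by
    intro hx
    rcases Finset.mem_union.mp hx with h | h
    · exact hxC h
    · exact (Finset.mem_compl.mp h) x.2)
  rw [glue_pos A _ _ x.1 x.2, glue_pos A _ _ x.1 x.2] at h
  exact h

theorem rank_cut_le {Λ : Type*} [Fintype Λ] [DecidableEq Λ] {q : ℕ} [NeZero q]
    (A C : Finset Λ) (hC : C ⊆ A)
    (T : Matrix (Conf Λ q) (Conf Λ q) ℂ) (hT : SupportedOn (C ∪ Aᶜ) T)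
    (f : ({x // x ∈ A} → Fin q) → ℂ) (g : ({x // x ∉ A} → Fin q) → ℂ)
    (φ : Conf Λ q → ℂ) (hφ : ∀ τ, φ τ = f (fun x => τ x.1) * g (fun x => τ x.1)) :
    (cutMatrix A (T *ᵥ φ)).rank ≤ q ^ (2 * C.card) := by
  classical
  have hM : ∀ (a : {x // x ∈ A} → Fin q) (b : {x // x ∉ A} → Fin q),
      cutMatrix A (T *ᵥ φ) a b = ∑ a' : {x // x ∈ A} → Fin q,
        (if (∀ x : {x // x ∈ A}, x.1 ∉ C → a x = a' x) then f a' else 0) *
          (∑ b' : {x // x ∉ A} → Fin q,
            T (glue A (extC A C (resC A C hC a)) b) (glue A (extC A C (resC A C hC a')) b')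
              * g b') := by
    intro a b
    have h1 : cutMatrix A (T *ᵥ φ) a b = ∑ κ, T (glue A a b) κ * φ κ := rfl
    rw [h1, sum_glue A]
    refine Finset.sum_congr rfl fun a' _ => ?_
    by_cases hag : ∀ x : {x // x ∈ A}, x.1 ∉ C → a x = a' x
    · rw [if_pos hag, Finset.mul_sum]
      refine Finset.sum_congr rfl fun b' _ => ?_
      rw [T_entry A C hC T hT a a' b b' hag, hφ, glue_on, glue_off]
      ring
    · rw [if_neg hag, zero_mul]
      exact Finset.sum_eq_zero fun b' _ => by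
        rw [T_entry_zero A C T hT a a' b b' hag, zero_mul]
  have hrank := rank_le_of_kernel (cutMatrix A (T *ᵥ φ))
    (fun (a a' : {x // x ∈ A} → Fin q) =>
      if (∀ x : {x // x ∈ A}, x.1 ∉ C → a x = a' x) then f a' else 0)
    (resC A C hC) (resC A C hC)
    (fun (c2 c1 : {x // x ∈ C} → Fin q) (b : {x // x ∉ A} → Fin q) =>
      ∑ b' : {x // x ∉ A} → Fin q,
        T (glue A (extC A C c2) b) (glue A (extC A C c1) b') * g b')
    hM
  calc (cutMatrix A (T *ᵥ φ)).rank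
      ≤ Fintype.card ({x // x ∈ C} → Fin q) * Fintype.card ({x // x ∈ C} → Fin q) := hrank
    _ = q ^ (2 * C.card) := by
        rw [Fintype.card_fun, Fintype.card_fin, Fintype.card_coe, ← pow_add, two_mul]

end Vale.Agent.Lib.P356.H25
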